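import Vale.Agent.P201.Stmt

open Vale.Agent.P201

namespace Vale.Agent.Results.P201.DominantCoefficients

/-- Criteria for a group algebra element to be no zero divisor, and their three-term corollaries. -/
theorem result (K G : Type) [Field K] [Group G] (ht : TorsionFree G) :
    (∀ (a : MonoidAlgebra K G) (V : ValuationSubring K) (g0 g1 : G), a.coeff g0 ≠ 0 →
      (∀ g, g ≠ g0 → g ≠ g1 → V.valuation (a.coeff g) < V.valuation (a.coeff g0)) →
      V.valuation (a.coeff g1) ≤ V.valuation (a.coeff g0) → IsTwoSidedRegular a) ∧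
    (∀ (a : MonoidAlgebra K G) (N : AbsoluteValue K ℝ) (g0 : G), a.coeff g0 ≠ 0 →
      ∑ g ∈ a.coeff.support, N (a.coeff g) ≤ 2 * N (a.coeff g0) → IsTwoSidedRegular a) ∧
    (∀ (a : MonoidAlgebra K G) (g0 g1 : G), a.coeff g0 ≠ 0 →
      (∀ P : MvPolynomial {g : G // g ≠ g0 ∧ g ≠ g1} ℤ,
        MvPolynomial.eval₂ (Int.castRingHom K) (fun g => a.coeff g.1 / a.coeff g0) P = 0 →
          MvPolynomial.constantCoeff P ≠ 1) → IsTwoSidedRegular a) ∧
    (∀ a : MonoidAlgebra K G, a.coeff.support.card = 3 → ¬IsTwoSidedRegular a →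
      ∀ g h, a.coeff g ≠ 0 → a.coeff h ≠ 0 → IsIntegral ℤ (a.coeff g / a.coeff h)) ∧
    (∀ a : MonoidAlgebra ℚ G, a.coeff.support.card = 3 → ¬IsTwoSidedRegular a →
      ∀ g h, a.coeff g ≠ 0 → a.coeff h ≠ 0 → |a.coeff g| = |a.coeff h|) :=
  ⟨fun a V g0 g1 h0 h h1 => regular_of_two_dominant ht a V g0 g1 h0 h h1,
    fun a N g0 h0 h => regular_abs ht a N g0 h0 h,
    fun a g0 g1 h0 h => regular_of_small_ratios ht a g0 g1 h0 h,
    fun a hc hr g h hg hh => three_term_ratios ht a hc hr g h hg hh,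
    fun a hc hr g h hg hh => rat_three_term ht a hc hr g h hg hh⟩

end Vale.Agent.Results.P201.DominantCoefficients
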