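import Vale.Agent.GroupRingKernels.Reduction

open Vale.Agent.GroupRingKernels

namespace Vale.Agent.Results.P201.KernelExtensions

/-- The domain property passes through locally free, central and unipotent abelian kernels. -/
theorem result :
    (∀ (K : Type) [Field K] (G : Type) [Group G] (N : Subgroup G) [N.Normal],
      AdmissibleKernel K N →
      NoZeroDivisors (MonoidAlgebra K (G ⧸ N)) → NoZeroDivisors (MonoidAlgebra K G)) ∧
    (∀ (K : Type) [Field K] (G : Type) [Group G] (N : ℕ → Subgroup G) [∀ i, (N i).Normal]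
      [∀ i, ((N i).map (QuotientGroup.mk' (N (i + 1)))).Normal],
      (∀ i, N (i + 1) ≤ N i) → (∀ g, (∀ i, g ∈ N i) → g = 1) →
      NoZeroDivisors (MonoidAlgebra K (G ⧸ N 0)) →
      (∀ i, AdmissibleKernel K ((N i).map (QuotientGroup.mk' (N (i + 1))))) →
        NoZeroDivisors (MonoidAlgebra K G)) ∧
    (∀ (K : Type) [Field K] [CharZero K] (G : Type) [Group G] (N : Subgroup G) [N.Normal]
      (p : ℕ), p.Prime → UnipotentModP p N →
      (∀ (k : Type) [Field k] [CharP k p], NoZeroDivisors (MonoidAlgebra k (G ⧸ N))) →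
        NoZeroDivisors (MonoidAlgebra K G)) ∧
    (∀ (K : Type) [Field K] (G : Type) [Group G] (N : Subgroup G) [N.Normal],
      LocallyIndicable N → ∀ x y : MonoidAlgebra K G, x * y = 0 →
        ((∀ z, MonoidAlgebra.mapDomainRingHom K (QuotientGroup.mk' N) x * z = 0 → z = 0) →
          y = 0) ∧
        ((∀ z, z * MonoidAlgebra.mapDomainRingHom K (QuotientGroup.mk' N) y = 0 → z = 0) →
          x = 0)) := by
  have step : ∀ (K : Type) [Field K] (G : Type) [Group G] (N : Subgroup G) [N.Normal],
      AdmissibleKernel K N →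
      NoZeroDivisors (MonoidAlgebra K (G ⧸ N)) → NoZeroDivisors (MonoidAlgebra K G) := by
    intro K _ G _ N _ h hQ
    rcases h with h | ⟨h, ht⟩ | ⟨p, hp, hK, h⟩
    · exact noZeroDivisors_of_locallyFree N h
    · exact noZeroDivisors_of_central N h ht
    · have : Fact p.Prime := ⟨hp⟩
      exact noZeroDivisors_of_unipotent p N h
  refine ⟨step, fun K _ G _ N _ _ hle hbot htop hF =>
    noZeroDivisors_of_steps N hle hbot htop fun i _ h => step K _ _ (hF i) h,
    fun K _ _ G _ N _ p hp hN h => ?_, fun K _ G _ N _ hN x y hxy => ?_⟩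
  · have : Fact p.Prime := ⟨hp⟩
    exact noZeroDivisors_of_unipotent_charZero p N hN h
  have hT : Transfers (Vale.Agent.P194.aug K (QuotientGroup.mk' N).ker) := by
    rw [QuotientGroup.ker_mk']
    exact transfers_of_locallyIndicable hN
  exact ⟨fun h => mul_eq_zero_left_of_push _ hT x y h hxy,
    fun h => mul_eq_zero_right_of_push _ hT x y h hxy⟩

end Vale.Agent.Results.P201.KernelExtensions
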